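import Vale.Agent.P284.Bdl.B1
import Vale.Agent.P284.GeomDefs

namespace Vale.Agent.Results.P284.Special

open Vale.Agent.P284
open scoped Manifold ContDiff

/-- For a special compact Kähler manifold `X` of dimension `n`, the published restrictions on
`π₁(X)` imply that `π₁(X)` is virtually abelian if and only if
it is elementary amenable, and give further equivalent criteria. -/
theorem result {E : Type} [NormedAddCommGroup E] [NormedSpace ℂ E] [FiniteDimensional ℂ E]
    {X : Type} [TopologicalSpace X] [T2Space X] [CompactSpace X]
    [ConnectedSpace X] [ChartedSpace E X] [IsManifold 𝓘(ℂ, E) ω X]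
    (_hKahler : IsKahler E X) (_hSpecial : IsSpecial E X) (x : X)
    (h : Restricted (FundamentalGroup X x) (2 * Module.finrank ℂ E)) :
    (criteria (FundamentalGroup X x)).TFAE :=
  tfae_restricted h

end Vale.Agent.Results.P284.Special
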